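import Mathlib
import Vale.Agent.P150.Defs
import Vale.Agent.P150.Bdl.B39

open Filter Topology

namespace Vale.Agent.Results.P150.Full

open Vale.Agent.P150

/-- Zero-field SK heat-bath dynamics, w.h.p. over the disorder. For every fixed `0 ≤ β < 1`: the
gap is in `[c, 1]` and the mixing time is of order `log n` (fast mixing in the whole
high-temperature phase). For every fixed `β ≥ 0`: the mixing time is at least `c log n`. For fixed
`β > 1`: the gap is at most `a n / n` and the mixing time is at least `(log 2) n / a n`, for every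
sequence `a n → ∞`. -/
theorem result :
    (∀ β : ℝ, 0 ≤ β → β < 1 → ∃ c C : ℝ, 0 < c ∧ 0 < C ∧ WHP (fun n => {g |
      c ≤ gap (skJ β g) (fun _ => 0) ∧ gap (skJ β g) (fun _ => 0) ≤ 1 ∧
      c * Real.log n ≤ tmix (skJ β g) (fun _ => 0) ∧
      tmix (skJ β g) (fun _ => 0) ≤ C * Real.log n ∧
      ∀ t, C * Real.log n ≤ t → ∀ x, tvDist (skJ β g) (fun _ => 0) t x ≤ 1 / 4})) ∧
    (∀ β : ℝ, 0 ≤ β → ∃ c : ℝ, 0 < c ∧ WHP (fun n => {g |
      c * Real.log n ≤ tmix (skJ β g) (fun _ => 0)})) ∧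
    (∀ β : ℝ, 1 < β → ∀ a : ℕ → ℝ, Tendsto a atTop atTop → WHP (fun n => {g |
      gap (skJ β g) (fun _ => 0) ≤ a n / n ∧
      Real.log 2 * (n / a n) ≤ tmix (skJ β g) (fun _ => 0)})) :=
  Vale.Agent.P150.F.main_full

end Vale.Agent.Results.P150.Full
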