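import Vale.Agent.P150.MathlibUsed
import Vale.Agent.P150.Defs
import Vale.Agent.P150.Bdl.B39

open Filter Topology

namespace Vale.Agent.Results.P150.Main2

open Vale.Agent.P150

/-- SK heat-bath dynamics, w.h.p. over the disorder. For fixed `0 ≤ β < 1/2`, simultaneously for
all external fields `b` (chosen after the disorder): the gap is in `[1 - 2β - ε, 1]` and the mixing
time is at most `C log n`; in zero field it is also at least `c log n`. For every fixed `β ≥ 0`,
zero field: the mixing time is at least `c log n`. For fixed `β > 1`, zero field: the gap is at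
most `a n / n` and the mixing time is at least `(log 2) n / a n`, for every sequence `a n → ∞`. -/
theorem result :
    (∀ β : ℝ, 0 ≤ β → β < 1 / 2 → ∃ c C : ℝ, 0 < c ∧ 0 < C ∧ ∀ ε : ℝ, 0 < ε → WHP (fun n => {g |
      (∀ b : Fin n → ℝ, 1 - 2 * β - ε ≤ gap (skJ β g) b ∧ gap (skJ β g) b ≤ 1 ∧
        tmix (skJ β g) b ≤ C * Real.log n ∧
        ∀ t, C * Real.log n ≤ t → ∀ x, tvDist (skJ β g) b t x ≤ 1 / 4) ∧
      c * Real.log n ≤ tmix (skJ β g) (fun _ => 0)})) ∧
    (∀ β : ℝ, 0 ≤ β → ∃ c : ℝ, 0 < c ∧ WHP (fun n => {g |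
      c * Real.log n ≤ tmix (skJ β g) (fun _ => 0)})) ∧
    (∀ β : ℝ, 1 < β → ∀ a : ℕ → ℝ, Tendsto a atTop atTop → WHP (fun n => {g |
      gap (skJ β g) (fun _ => 0) ≤ a n / n ∧
      Real.log 2 * (n / a n) ≤ tmix (skJ β g) (fun _ => 0)})) :=
  MainThm.main2

end Vale.Agent.Results.P150.Main2
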